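import Vale.Agent.P181.H382.H112.Defs

set_option autoImplicit false

/-!
# P181, LSU: the line LS uniform in `b > a`: the literals

One clause `C b (1 + log (b / (b - a))) ≤ (b - a) log (w D_2 / b ^ 3)`, `w = dn lam 1`. For
`b ≥ (1 + δ) a` it is `w D_2 ≥ C' b ^ 3`; together with `P w ≤ b ^ 2` and `PolyS` it contains
`NearA`.
-/

namespace Vale.Agent.P181.H382.H242

open Vale.Agent.P181.H280 (plethMult)
open Vale.Agent.P181.TL (dn2)
open Vale.Agent.P181.PL (dn)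

/-- **[U4]** the numbers, from `CoreS`. -/
def TwoLongU : Prop := ∃ C : ℝ, 1 ≤ C ∧ ∀ (a b k : ℕ) (lam : Fin (k + 3) → ℕ),
  lam 1 ≤ lam 0 → ∑ i, lam i = a * b → a < b → C ≤ a →
  C * b * ((b : ℝ) / (b - a)) ≤ lam 1 →
  C * b * ((b : ℝ) / (b - a)) ^ 2 * dn2 lam ≤ a * lam 1 →
  C * b * (1 + Real.log ((b : ℝ) / (b - a))) ≤
    ((b : ℝ) - a) * Real.log ((lam 1 : ℝ) * dn2 lam / b ^ 3) →
  plethMult a b (k + 3) lam ≤ plethMult b a (k + 3) lam

/-- **[U5]** the final clause, from `TwoLongU` and `RH.NearA`. -/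
def RhoU : Prop := ∃ C : ℝ, 0 < C ∧ ∀ a b : ℕ, a < b → ∀ (n : ℕ) (lam : Fin n → ℕ),
  C * b * (1 + Real.log ((b : ℝ) / (b - a))) ≤
    ((b : ℝ) - a) * Real.log ((dn lam 1 : ℝ) * dn lam 2 / b ^ 3) →
  plethMult a b n lam ≤ plethMult b a n lam

end Vale.Agent.P181.H382.H242
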