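import Mathlib

set_option autoImplicit false

/-!
# P181, LL: the parameters of `CoreN` from one natural number `S` (pure arithmetic)
-/

namespace Vale.Agent.P181.H382.H242

/-- The size of `a`. -/
theorem big_a {S a t : ℕ} (ha : 0 < a) (h1 : 18432 * S ^ 4 * a ≤ t)
    (h2 : 36864 * S ^ 3 * t ≤ a ^ 2) : 679477248 * S ^ 7 ≤ a := by
  have h3 : 36864 * S ^ 3 * (18432 * S ^ 4 * a) ≤ a ^ 2 :=
    (Nat.mul_le_mul_left _ h1).trans h2
  have h4 : (679477248 * S ^ 7) * a ≤ a * a := by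
    calc (679477248 * S ^ 7) * a = 36864 * S ^ 3 * (18432 * S ^ 4 * a) := by ring
      _ ≤ a ^ 2 := h3
      _ = a * a := by ring
  exact Nat.le_of_mul_le_mul_right h4 ha

/-- The choice of `e` and `R`. -/
theorem ch_e {S a : ℕ} (hS : 2 ≤ S) (ha : 679477248 * S ^ 7 ≤ a) :
    ∃ e R : ℕ, 144 * S ^ 2 * e ≤ a ∧ a < 288 * S ^ 2 * e ∧ 4 * R ≤ e ∧ e < 8 * R ∧
      1000 ≤ e := by
  have hS2 : 4 ≤ S ^ 2 := by nlinarith
  have hS7 : S ^ 2 * 32 ≤ S ^ 7 := by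
    have h5 : 32 ≤ S ^ 5 := by
      calc 32 = 2 ^ 5 := by norm_num
        _ ≤ S ^ 5 := Nat.pow_le_pow_left hS 5
    calc S ^ 2 * 32 ≤ S ^ 2 * S ^ 5 := Nat.mul_le_mul_left _ h5
      _ = S ^ 7 := by ring
  set Q : ℕ := 144 * S ^ 2 with hQ
  have hQ0 : 0 < Q := by omega
  have h0 : 2000 * Q ≤ a := by
    rw [hQ]
    omega
  have h1 : Q * (a / Q) ≤ a := Nat.mul_div_le _ _
  have h2 : a < Q * (a / Q + 1) := by
    have := Nat.lt_mul_div_succ a hQ0
    simpa using this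
  have h3 : 1000 ≤ a / Q := by
    rw [Nat.le_div_iff_mul_le hQ0]
    omega
  set e : ℕ := a / Q
  refine ⟨e, e / 4, h1, ?_, by omega, by omega, h3⟩
  have h4 : Q * (e + 1) ≤ Q * (2 * e) := Nat.mul_le_mul_left _ (by omega)
  calc a < Q * (e + 1) := h2
    _ ≤ Q * (2 * e) := h4
    _ = 288 * S ^ 2 * e := by rw [hQ]; ring

/-- The choice of `h`. -/
theorem ch_h {S a b t l e R : ℕ} (hS : 2 ≤ S) (hab : a < b) (hg : b ≤ S * (b - a))
    (h2 : 36864 * S ^ 3 * t ≤ a ^ 2) (h3 : l ≤ t) (hA : a < 288 * S ^ 2 * e) (he : e < 8 * R)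
    (hbig : 16 * S ≤ a) :
    ∃ h : ℕ, 1 ≤ h ∧ l ≤ h * R ∧ 8 * h ≤ b - a ∧ e * h ≤ 8 * t + 2 * e + 8 * R := by
  have hR : 0 < R := by omega
  have hl : l < R * (l / R + 1) := Nat.lt_mul_div_succ l hR
  have hh : (l / R + 1) * R ≤ t + R := by
    have := Nat.div_mul_le_self l R
    rw [Nat.add_mul, one_mul]
    omega
  have hh0 : 1 ≤ l / R + 1 := Nat.succ_pos _
  set h : ℕ := l / R + 1
  have hgap : a ≤ S * (b - a) := hab.le.trans hg
  refine ⟨h, hh0, by rw [Nat.mul_comm]; exact hl.le, ?_, ?_⟩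
  · -- `8 h R S ≤ 8 (t + R) S ≤ a R ≤ (b - a) R S`
    have hS0 : 0 < S := by omega
    have hSt : 16 * (t * S) ≤ a * R := by
      -- `a ^ 2 ≤ a (288 S ^ 2 e) ≤ a (2304 S ^ 2 R)`
      have k1 : a * a ≤ a * (2304 * S ^ 2 * R) := by
        refine Nat.mul_le_mul_left _ (hA.le.trans ?_)
        calc 288 * S ^ 2 * e ≤ 288 * S ^ 2 * (8 * R) := Nat.mul_le_mul_left _ he.le
          _ = 2304 * S ^ 2 * R := by ring
      have k2 : (2304 * S ^ 2) * (16 * (t * S)) ≤ (2304 * S ^ 2) * (a * R) := by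
        calc (2304 * S ^ 2) * (16 * (t * S)) = 36864 * S ^ 3 * t := by ring
          _ ≤ a ^ 2 := h2
          _ = a * a := by ring
          _ ≤ a * (2304 * S ^ 2 * R) := k1
          _ = (2304 * S ^ 2) * (a * R) := by ring
      exact Nat.le_of_mul_le_mul_left k2 (by positivity)
    have hSR : 16 * (S * R) ≤ a * R := by
      calc 16 * (S * R) = (16 * S) * R := by ring
        _ ≤ a * R := Nat.mul_le_mul_right _ hbig
    have k3 : (8 * h) * (R * S) ≤ (b - a) * (R * S) := by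
      calc (8 * h) * (R * S) = 8 * S * (h * R) := by ring
        _ ≤ 8 * S * (t + R) := Nat.mul_le_mul_left _ hh
        _ = 8 * (t * S) + 8 * (S * R) := by ring
        _ ≤ a * R := by omega
        _ ≤ (S * (b - a)) * R := Nat.mul_le_mul_right _ hgap
        _ = (b - a) * (R * S) := by ring
    exact Nat.le_of_mul_le_mul_right k3 (by positivity)
  · calc e * h ≤ (8 * R) * h := Nat.mul_le_mul_right _ he.le
      _ = 8 * (h * R) := by ring
      _ ≤ 8 * (t + R) := Nat.mul_le_mul_left _ hh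
      _ ≤ 8 * t + 2 * e + 8 * R := by omega

/-- The choice of `K`. -/
theorem ch_K {S a b e : ℕ} (hS : 2 ≤ S) (hab : a < b) (hg : b ≤ S * (b - a))
    (he : 144 * S ^ 2 * e ≤ a) (hbig : 100 ≤ a) (hbS : 72 * S ≤ a) :
    ∃ K : ℕ, e * b ≤ K * (a - 12) ∧ 36 * K ≤ b - a ∧ K * (5 * a - 6) ≤ 6 * (e * b) + 6 * a := by
  have ha : 0 < a - 12 := by omega
  have h1 : e * b < (a - 12) * (e * b / (a - 12) + 1) := Nat.lt_mul_div_succ _ ha
  have h2 : (e * b / (a - 12)) * (a - 12) ≤ e * b := Nat.div_mul_le_self _ _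
  set K0 : ℕ := e * b / (a - 12)
  have hS0 : 0 < S := by omega
  have h3 : (K0 + 1) * (a - 12) ≤ e * b + (a - 12) := by
    rw [Nat.add_mul, one_mul]
    omega
  have hd : 72 ≤ b - a := by
    have k1 : S * 72 ≤ S * (b - a) := by
      calc S * 72 = 72 * S := by ring
        _ ≤ a := hbS
        _ ≤ b := hab.le
        _ ≤ S * (b - a) := hg
    exact Nat.le_of_mul_le_mul_left k1 hS0
  have hes : 288 * (e * S) ≤ a := by
    calc 288 * (e * S) = 144 * (S * 2) * e := by ring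
      _ ≤ 144 * (S * S) * e := by gcongr
      _ = 144 * S ^ 2 * e := by ring
      _ ≤ a := he
  refine ⟨K0 + 1, by rw [Nat.mul_comm (K0 + 1)]; exact h1.le, ?_, ?_⟩
  · have k1 : (36 * (K0 + 1)) * (a - 12) ≤ (b - a) * (a - 12) := by
      have k2 : 72 * (e * b) ≤ (b - a) * (a - 12) := by
        calc 72 * (e * b) ≤ 72 * (e * (S * (b - a))) := by gcongr
          _ = (b - a) * (72 * (e * S)) := by ring
          _ ≤ (b - a) * (a - 12) := Nat.mul_le_mul_left _ (by omega)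
      have k3 : 72 * (a - 12) ≤ (b - a) * (a - 12) := Nat.mul_le_mul_right _ hd
      calc (36 * (K0 + 1)) * (a - 12) = 36 * ((K0 + 1) * (a - 12)) := by ring
        _ ≤ 36 * (e * b + (a - 12)) := Nat.mul_le_mul_left _ h3
        _ ≤ (b - a) * (a - 12) := by omega
    exact Nat.le_of_mul_le_mul_right k1 ha
  · calc (K0 + 1) * (5 * a - 6) ≤ (K0 + 1) * (6 * (a - 12)) :=
          Nat.mul_le_mul_left _ (by omega)
      _ = 6 * ((K0 + 1) * (a - 12)) := by ring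
      _ ≤ 6 * (e * b + (a - 12)) := Nat.mul_le_mul_left _ h3
      _ ≤ 6 * (e * b) + 6 * a := by omega

/-- The choice of `X`. -/
theorem ch_X {S a t : ℕ} (hS : 2 ≤ S) (ha : 0 < a) (h1 : 18432 * S ^ 4 * a ≤ t) :
    ∃ X : ℕ, 2 ≤ X ∧ 9216 * S ^ 4 * a * X ≤ t ∧ t ≤ 18432 * S ^ 4 * a * X ∧
      t < 9216 * S ^ 4 * a * (X + 1) := by
  have h0 : 0 < 9216 * S ^ 4 * a := by positivity
  set M : ℕ := 9216 * S ^ 4 * a with hM
  have h2 : M * (t / M) ≤ t := Nat.mul_div_le _ _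
  have h3 : t < M * (t / M + 1) := Nat.lt_mul_div_succ t h0
  have h4 : 2 ≤ t / M := by
    rw [Nat.le_div_iff_mul_le h0]
    calc 2 * M = 18432 * S ^ 4 * a := by rw [hM]; ring
      _ ≤ t := h1
  set X : ℕ := t / M
  refine ⟨X, h4, h2, ?_, h3⟩
  have h5 : M * (X + 1) ≤ M * (2 * X) := Nat.mul_le_mul_left _ (by omega)
  calc t ≤ M * (X + 1) := h3.le
    _ ≤ M * (2 * X) := h5
    _ = 18432 * S ^ 4 * a * X := by rw [hM]; ring

theorem two_mX {m X : ℕ} (hm : 1 ≤ m) (hX : 2 ≤ X) : m * (X + 1) + 1 ≤ 2 * (m * X) := by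
  obtain ⟨Y, rfl⟩ : ∃ Y, X = Y + 2 := ⟨X - 2, by omega⟩
  have h1 : m * (Y + 2 + 1) + 1 = m * Y + 3 * m + 1 := by ring
  have h2 : 2 * (m * (Y + 2)) = 2 * (m * Y) + 4 * m := by ring
  omega

/-- The condition of the window. -/
theorem win {S a b t n m X : ℕ} (hS0 : 0 < S) (ha0 : 0 < a) (hn0 : 0 < n) (hm1 : 1 ≤ m)
    (hm : m = 1152 * S ^ 3) (hX1 : 2 ≤ X) (hX2 : 9216 * S ^ 4 * a * X ≤ t) (hab : a < b)
    (hg : b ≤ S * (b - a)) (hn2 : a + b ≤ 2 * n) (hn3 : a ≤ n) (hn4 : n ≤ b) :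
    t / n + m * (X + 1) + 1 ≤ t / a := by
  by_contra hc
  rw [not_le] at hc
  have k1 : (t / n) * n ≤ t := Nat.div_mul_le_self _ _
  have k2 : t < a * (t / a + 1) := Nat.lt_mul_div_succ t ha0
  have k3 : t / a + 1 ≤ t / n + (m * (X + 1) + 1) := by omega
  have k4 : m * (X + 1) + 1 ≤ 2 * (m * X) := two_mX hm1 hX1
  have k5 : t * n < t * a + 2 * (m * X) * (n * a) := by
    calc t * n < (a * (t / a + 1)) * n := Nat.mul_lt_mul_of_pos_right k2 hn0
      _ ≤ (a * (t / n + (m * (X + 1) + 1))) * n :=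
        Nat.mul_le_mul_right _ (Nat.mul_le_mul_left _ k3)
      _ = a * ((t / n) * n) + (m * (X + 1) + 1) * (n * a) := by ring
      _ ≤ a * t + (2 * (m * X)) * (n * a) :=
        Nat.add_le_add (Nat.mul_le_mul_left _ k1) (Nat.mul_le_mul_right _ k4)
      _ = t * a + 2 * (m * X) * (n * a) := by ring
  have k6 : (4 * S) * (2 * (m * X) * (n * a)) ≤ t * n := by
    calc (4 * S) * (2 * (m * X) * (n * a)) = (9216 * S ^ 4 * a * X) * n := by rw [hm]; ring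
      _ ≤ t * n := Nat.mul_le_mul_right _ hX2
  have k7 : (4 * S) * (t * n) < (4 * S) * (t * a) + t * n := by
    calc (4 * S) * (t * n) < (4 * S) * (t * a + 2 * (m * X) * (n * a)) :=
          Nat.mul_lt_mul_of_pos_left k5 (by positivity)
      _ = (4 * S) * (t * a) + (4 * S) * (2 * (m * X) * (n * a)) := by ring
      _ ≤ (4 * S) * (t * a) + t * n := Nat.add_le_add_left k6 _
  -- `4 S (n - a) ≥ 2 S (b - a) ≥ 2 b ≥ 2 n`
  obtain ⟨d, hd⟩ : ∃ d, b = a + d := ⟨b - a, by omega⟩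
  obtain ⟨f, hf⟩ : ∃ f, n = a + f := ⟨n - a, by omega⟩
  have k8 : b - a = d := by omega
  rw [k8] at hg
  have k9 : d ≤ 2 * f := by omega
  have k10 : n ≤ 4 * S * f := by
    calc n ≤ b := hn4
      _ ≤ S * d := hg
      _ ≤ S * (2 * f) := Nat.mul_le_mul_left _ k9
      _ ≤ S * (4 * f) := Nat.mul_le_mul_left _ (by omega)
      _ = 4 * S * f := by ring
  have k11 : t * n ≤ t * (4 * S * f) := Nat.mul_le_mul_left _ k10
  have k12 : (4 * S) * (t * n) = (4 * S) * (t * a) + t * (4 * S * f) := by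
    rw [hf]; ring
  omega

/-- The row `1`. -/
theorem row_one {S a b t n m e h R K l l1 : ℕ} (hS0 : 0 < S) (hm : m = 1152 * S ^ 3)
    (hn4 : n ≤ b) (hb : b ≤ S * a) (hl : a ^ 2 ≤ S * l1) (h2 : 36864 * S ^ 3 * t ≤ a ^ 2)
    (h3 : l ≤ t) (he1 : 144 * S ^ 2 * e ≤ a) (hR1 : 4 * R ≤ e) (hbigS : 1000000 * S ≤ a)
    (hh4 : e * h ≤ 8 * t + 2 * e + 8 * R) (hK3 : K * (5 * a - 6) ≤ 6 * (e * b) + 6 * a) :
    n * (n / m) + 2 * e * h + l + K * (5 * a - 6) + 9 * a ≤ l1 := by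
  have hmn : (n / m) * m ≤ n := Nat.div_mul_le_self _ _
  have hSS : 1 ≤ S ^ 2 := Nat.one_le_pow _ _ hS0
  have r0 : a * a = a ^ 2 := by ring
  have r1 : 1152 * (S * (n * (n / m))) ≤ a ^ 2 := by
    have k1 : (S ^ 2) * (1152 * (S * (n * (n / m)))) ≤ (S ^ 2) * a ^ 2 := by
      calc (S ^ 2) * (1152 * (S * (n * (n / m)))) = n * ((n / m) * m) := by rw [hm]; ring
        _ ≤ n * n := Nat.mul_le_mul_left _ hmn
        _ ≤ (S * a) * (S * a) := Nat.mul_le_mul (hn4.trans hb) (hn4.trans hb)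
        _ = (S ^ 2) * a ^ 2 := by ring
    exact Nat.le_of_mul_le_mul_left k1 (by positivity)
  have r2 : 36864 * (S * t) ≤ a ^ 2 := by
    calc 36864 * (S * t) = 36864 * (1 * S) * t := by ring
      _ ≤ 36864 * (S ^ 2 * S) * t :=
        Nat.mul_le_mul_right _ (Nat.mul_le_mul_left _ (Nat.mul_le_mul_right _ hSS))
      _ = 36864 * S ^ 3 * t := by ring
      _ ≤ a ^ 2 := h2
  have r3 : 144 * (S * (e * b)) ≤ a ^ 2 := by
    calc 144 * (S * (e * b)) ≤ 144 * (S * (e * (S * a))) :=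
          Nat.mul_le_mul_left _ (Nat.mul_le_mul_left _ (Nat.mul_le_mul_left _ hb))
      _ = a * (144 * S ^ 2 * e) := by ring
      _ ≤ a * a := Nat.mul_le_mul_left _ he1
      _ = a ^ 2 := r0
  have r4 : 1000000 * (S * a) ≤ a ^ 2 := by
    calc 1000000 * (S * a) = (1000000 * S) * a := by ring
      _ ≤ a * a := Nat.mul_le_mul_right _ hbigS
      _ = a ^ 2 := r0
  have r5 : e ≤ a := by
    calc e ≤ 144 * S ^ 2 * e := Nat.le_mul_of_pos_left _ (by positivity)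
      _ ≤ a := he1
  have r6 : S * e ≤ S * a := Nat.mul_le_mul_left _ r5
  have r7 : S * R ≤ S * a := Nat.mul_le_mul_left _ (by omega)
  have r8 : S * l ≤ S * t := Nat.mul_le_mul_left _ h3
  have r10 : S * (e * h) ≤ S * (8 * t + 2 * e + 8 * R) := Nat.mul_le_mul_left _ hh4
  have r11 : S * (K * (5 * a - 6)) ≤ S * (6 * (e * b) + 6 * a) := Nat.mul_le_mul_left _ hK3
  have r12 : S * (8 * t + 2 * e + 8 * R) = 8 * (S * t) + 2 * (S * e) + 8 * (S * R) := by ring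
  have r13 : S * (6 * (e * b) + 6 * a) = 6 * (S * (e * b)) + 6 * (S * a) := by ring
  have r9 : S * (n * (n / m) + 2 * e * h + l + K * (5 * a - 6) + 9 * a) ≤ S * l1 := by
    calc S * (n * (n / m) + 2 * e * h + l + K * (5 * a - 6) + 9 * a)
        = S * (n * (n / m)) + 2 * (S * (e * h)) + S * l + S * (K * (5 * a - 6)) +
          9 * (S * a) := by ring
      _ ≤ a ^ 2 := by omega
      _ ≤ S * l1 := hl
  exact Nat.le_of_mul_le_mul_left r9 hS0

/-- **The parameters.** -/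
theorem params {S a b t l1 l a₀ : ℕ} (hS : 2 ≤ S) (ha₀ : a₀ ≤ S) (hab : a < b)
    (hb : b ≤ S * a) (hl : a ^ 2 ≤ S * l1) (hg : b ≤ S * (b - a))
    (h1 : 18432 * S ^ 4 * a ≤ t) (h2 : 36864 * S ^ 3 * t ≤ a ^ 2) (h3 : l ≤ t) :
    ∃ e n m X h R K : ℕ, a₀ + e ≤ a ∧ 12 < a ∧ 1 ≤ m ∧ 1 ≤ X ∧ 1 ≤ h ∧ a ≤ n ∧
      n + 2 * h + 9 * K = b ∧ e * b ≤ K * (a - 12) ∧ (m * (X + 1) + X) * n ≤ t ∧
      t / n + m * (X + 1) + 1 ≤ t / a ∧ l ≤ h * R ∧ t / a + n / m + 2 + R ≤ e ∧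
      n * (n / m) + 2 * e * h + l + K * (5 * a - 6) + 9 * a ≤ l1 ∧
      a + b ≤ 2 * n ∧ n ≤ b ∧ t ≤ 18432 * S ^ 4 * a * X := by
  have hS0 : 0 < S := by omega
  have ha0 : 0 < a := by
    rcases Nat.eq_zero_or_pos a with h | h
    · subst h
      simp at hb
      omega
    · exact h
  have hbig := big_a ha0 h1 h2
  have hS7 : S * 64 ≤ S ^ 7 := by
    have h6 : 64 ≤ S ^ 6 := by
      calc 64 = 2 ^ 6 := by norm_num
        _ ≤ S ^ 6 := Nat.pow_le_pow_left hS 6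
    calc S * 64 ≤ S * S ^ 6 := Nat.mul_le_mul_left _ h6
      _ = S ^ 7 := by ring
  have hbigS : 1000000 * S ≤ a := by omega
  obtain ⟨e, R, he1, he2, hR1, hR2, he3⟩ := ch_e hS hbig
  obtain ⟨h, hh1, hh2, hh3, hh4⟩ := ch_h hS hab hg h2 h3 he2 hR2 (by omega)
  obtain ⟨K, hK1, hK2, hK3⟩ := ch_K hS hab hg he1 (by omega) (by omega)
  obtain ⟨X, hX1, hX2, hX3, -⟩ := ch_X hS ha0 h1
  obtain ⟨n, hn⟩ : ∃ n, n = b - 2 * h - 9 * K := ⟨_, rfl⟩
  have hn1 : n + 2 * h + 9 * K = b := by omega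
  have hn2 : a + b ≤ 2 * n := by omega
  have hn3 : a ≤ n := by omega
  have hn4 : n ≤ b := by omega
  have hn0 : 0 < n := by omega
  have hSS : 1 ≤ S ^ 2 := Nat.one_le_pow _ _ hS0
  have hSSS : 1 ≤ S ^ 3 := Nat.one_le_pow _ _ hS0
  obtain ⟨m, hm⟩ : ∃ m, m = 1152 * S ^ 3 := ⟨_, rfl⟩
  have hm1 : 1 ≤ m := by omega
  have hmn : (n / m) * m ≤ n := Nat.div_mul_le_self _ _
  -- `n / m ≤ e / 4`
  have q1 : 4 * (n / m) ≤ e := by
    have k1 : (288 * S ^ 3) * (4 * (n / m)) ≤ (288 * S ^ 3) * e := by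
      calc (288 * S ^ 3) * (4 * (n / m)) = (n / m) * m := by rw [hm]; ring
        _ ≤ n := hmn
        _ ≤ b := hn4
        _ ≤ S * a := hb
        _ ≤ S * (288 * S ^ 2 * e) := Nat.mul_le_mul_left _ he2.le
        _ = (288 * S ^ 3) * e := by ring
    exact Nat.le_of_mul_le_mul_left k1 (by positivity)
  -- `t / a ≤ e / 4`
  have q2 : 4 * (t / a) ≤ e := by
    have k0 : (t / a) * a ≤ t := Nat.div_mul_le_self _ _
    have k1 : (36864 * S ^ 3 * (t / a)) * a ≤ a * a := by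
      calc (36864 * S ^ 3 * (t / a)) * a = 36864 * S ^ 3 * ((t / a) * a) := by ring
        _ ≤ 36864 * S ^ 3 * t := Nat.mul_le_mul_left _ k0
        _ ≤ a ^ 2 := h2
        _ = a * a := by ring
    have k2 : 36864 * S ^ 3 * (t / a) ≤ a := Nat.le_of_mul_le_mul_right k1 ha0
    have k3 : (288 * S ^ 2) * (4 * (t / a)) ≤ (288 * S ^ 2) * e := by
      calc (288 * S ^ 2) * (4 * (t / a)) = 1152 * S ^ 2 * 1 * (t / a) := by ring
        _ ≤ 36864 * S ^ 2 * S * (t / a) := by gcongr <;> omega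
        _ = 36864 * S ^ 3 * (t / a) := by ring
        _ ≤ a := k2
        _ ≤ 288 * S ^ 2 * e := he2.le
    exact Nat.le_of_mul_le_mul_left k3 (by positivity)
  refine ⟨e, n, m, X, h, R, K, ?_, by omega, hm1, by omega, hh1, hn3, hn1, hK1, ?_, ?_, hh2, by omega,
    ?_, hn2, hn4, hX3⟩
  · -- `a₀ + e ≤ a`
    have k1 : 2 * e ≤ a := by
      calc 2 * e ≤ 144 * S ^ 2 * e := Nat.mul_le_mul_right _ (by omega)
        _ ≤ a := he1
    omega
  · -- `(m (X + 1) + X) n ≤ t`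
    calc (m * (X + 1) + X) * n ≤ (m * (2 * X) + m * X) * (S * a) := by
          gcongr
          · omega
          · exact Nat.le_mul_of_pos_left _ hm1
          · exact hn4.trans hb
      _ = 3456 * S ^ 4 * a * X := by rw [hm]; ring
      _ ≤ 9216 * S ^ 4 * a * X := by gcongr; omega
      _ ≤ t := hX2
  · exact win hS0 ha0 hn0 hm1 hm hX1 hX2 hab hg hn2 hn3 hn4
  · exact row_one hS0 hm hn4 hb hl h2 h3 he1 hR1 hbigS hh4 hK3

end Vale.Agent.P181.H382.H242
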