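import Vale.Agent.P181.H382.Defs
import Vale.Agent.P181.SZR1a.Main
import Vale.Agent.P181.SZR3.Col
import Vale.Agent.P181.SZT0.Tr

set_option autoImplicit false

/-!
# P181, LL, (L2): pigeonhole over row `1`
-/

open MvPolynomial

namespace Vale.Agent.P181.H382.H242

open Vale.Agent.P181.T4 (HW rowOp rowOp_apply mem_HW mem_ColS weight_colW)
open Vale.Agent.P181.H280 (plethMult)
open Vale.Agent.P181.SZ (SymHW finiteDimensional_SymHW plethMult_eq_SymHW)
open Vale.Agent.P181.SZR3 (rowD rowD_X rowD_eq coeff_X_mul_pderiv)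
open Vale.Agent.P181.SZT0 (rc inj_pr rowOp_rc coeff_rc)

section

variable {m : ℕ} {σ : Type} [Fintype σ]

lemma rowOp_comm' (s i c d : Fin m) (hic : c ≠ i) (f : MvPolynomial (Fin m × σ) ℂ) :
    rowOp s i (rowOp c d f) = rowOp c d (rowOp s i f) - if s = d then rowOp c i f else 0 := by
  have h : ⁅(rowD s i : Derivation ℂ (MvPolynomial (Fin m × σ) ℂ) (MvPolynomial (Fin m × σ) ℂ)),
      (rowD c d : Derivation ℂ (MvPolynomial (Fin m × σ) ℂ) (MvPolynomial (Fin m × σ) ℂ))⁆ =
      if s = d then - rowD c i else 0 := by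
    apply derivation_ext
    rintro ⟨k, l⟩
    rw [Derivation.commutator_apply, rowD_X, rowD_X]
    by_cases hs : s = d
    · rw [if_pos hs, Derivation.neg_apply, rowD_X]
      by_cases hk : k = i <;> by_cases hl : k = d <;> simp [hk, hl, rowD_X, hic, hs] <;>
        (try simp_all [rowD_X])
    · rw [if_neg hs, Derivation.zero_apply]
      by_cases hk : k = i <;> by_cases hl : k = d <;> simp [hk, hl, rowD_X, hic, hs] <;>
        (try simp_all [rowD_X])
  have h1 := congrArg (fun D => D f) h
  simp only [Derivation.commutator_apply] at h1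
  rw [rowD_eq, rowD_eq, rowD_eq, rowD_eq] at h1
  split_ifs at h1 ⊢ with hs
  · rw [Derivation.neg_apply, rowD_eq] at h1
    rw [sub_eq_iff_eq_add] at h1
    rw [h1]
    ring
  · rw [Derivation.zero_apply, sub_eq_zero] at h1
    rw [h1, sub_zero]

lemma exists_of_rowOp {s i : Fin m} {f : MvPolynomial (Fin m × σ) ℂ} {v : Fin m × σ →₀ ℕ}
    (hv : coeff v (rowOp s i f) ≠ 0) :
    ∃ (j : σ) (u : Fin m × σ →₀ ℕ), v = u + Finsupp.single (s, j) 1 ∧
      coeff (u + Finsupp.single (i, j) 1) f ≠ 0 := by
  classical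
  rw [rowOp_apply, coeff_sum] at hv
  obtain ⟨j, _, hj⟩ := Finset.exists_ne_zero_of_sum_ne_zero hv
  obtain ⟨u, hu, hu2⟩ := coeff_X_mul_pderiv _ _ _ _ hj
  exact ⟨j, u, hu, hu2⟩

lemma row_add (u : Fin m × σ →₀ ℕ) (s : Fin m) (j : σ) (i : Fin m) :
    ∑ l, (u + Finsupp.single (s, j) 1 : Fin m × σ →₀ ℕ) (i, l) =
      ∑ l, u (i, l) + if i = s then 1 else 0 := by
  classical
  simp only [Finsupp.add_apply, Finset.sum_add_distrib]
  congr 1
  by_cases h : i = s
  · subst h
    rw [if_pos rfl, Finset.sum_eq_single j]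
    · exact Finsupp.single_eq_same
    · intro l _ hl
      rw [Finsupp.single_apply, if_neg]
      intro e
      exact hl (congrArg Prod.snd e).symm
    · intro h'
      exact absurd (Finset.mem_univ _) h'
  · rw [if_neg h]
    refine Finset.sum_eq_zero fun l _ => ?_
    rw [Finsupp.single_apply, if_neg]
    intro e
    exact h (congrArg Prod.fst e).symm

omit [Fintype σ] in
lemma col_add (u : Fin m × σ →₀ ℕ) (s s' : Fin m) (j : σ) (l : σ) :
    ∑ i, (u + Finsupp.single (s, j) 1 : Fin m × σ →₀ ℕ) (i, l) =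
      ∑ i, (u + Finsupp.single (s', j) 1 : Fin m × σ →₀ ℕ) (i, l) := by
  classical
  simp only [Finsupp.add_apply, Finset.sum_add_distrib]
  congr 1
  have h : ∀ s : Fin m, ∑ i, (Finsupp.single (s, j) 1 : Fin m × σ →₀ ℕ) (i, l) =
      if j = l then 1 else 0 := by
    intro s
    by_cases h : j = l
    · subst h
      rw [if_pos rfl, Finset.sum_eq_single s]
      · exact Finsupp.single_eq_same
      · intro i _ hi
        rw [Finsupp.single_apply, if_neg]
        intro e
        exact hi (congrArg Prod.fst e).symm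
      · intro h'
        exact absurd (Finset.mem_univ _) h'
    · rw [if_neg h]
      refine Finset.sum_eq_zero fun i _ => ?_
      rw [Finsupp.single_apply, if_neg]
      intro e
      exact h (congrArg Prod.snd e)
  rw [h, h]

/-- Given row degrees: finite dimension. -/
lemma fd_row (mu : Fin m → ℕ) (W : Submodule ℂ (MvPolynomial (Fin m × σ) ℂ))
    (hW : ∀ f ∈ W, ∀ v, coeff v f ≠ 0 → ∀ i, ∑ j, v (i, j) = mu i) :
    FiniteDimensional ℂ W := by
  classical
  let T := Fin m × σ → Fin ((∑ i, mu i) + 1)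
  let e : T → (Fin m × σ →₀ ℕ) := fun u => Finsupp.equivFunOnFinite.symm (fun p => (u p : ℕ))
  let L : W →ₗ[ℂ] (T → ℂ) :=
    { toFun := fun f u => coeff (e u) f.1
      map_add' := fun f g => by funext u; exact coeff_add _ _ _
      map_smul' := fun c f => by funext u; exact coeff_smul _ _ _ }
  have hL : Function.Injective L := by
    rw [← LinearMap.ker_eq_bot, LinearMap.ker_eq_bot']
    intro f hf
    apply Subtype.ext
    apply MvPolynomial.ext
    intro v
    rw [ZeroMemClass.coe_zero, coeff_zero]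
    by_contra hv
    have h1 : ∀ p, v p < (∑ i, mu i) + 1 := by
      intro p
      have h2 := hW f.1 f.2 v hv p.1
      have h3 : v p ≤ ∑ j, v (p.1, j) :=
        Finset.single_le_sum (f := fun j => v (p.1, j)) (fun j _ => Nat.zero_le _)
          (Finset.mem_univ p.2)
      have h4 : mu p.1 ≤ ∑ i, mu i :=
        Finset.single_le_sum (fun i _ => Nat.zero_le (mu i)) (Finset.mem_univ p.1)
      omega
    have h5 := congrFun hf (fun p => ⟨v p, h1 p⟩)
    apply hv
    have h6 : e (fun p => ⟨v p, h1 p⟩) = v := by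
      ext p
      rfl
    change coeff (e (fun p => ⟨v p, h1 p⟩)) f.1 = 0 at h5
    rw [h6] at h5
    exact h5
  exact FiniteDimensional.of_injective L hL

instance finiteDimensional_NN (e : ℕ) (mu : Fin m → ℕ) : FiniteDimensional ℂ (NN m σ e mu) :=
  fd_row mu _ fun _ h => h.1

/-- The part killed by all row operators. -/
lemma ker_le (e : ℕ) (mu : Fin m → ℕ) (W : Submodule ℂ (MvPolynomial (Fin m × σ) ℂ))
    (hW : ∀ f ∈ W, f ∈ NN m σ e mu ∧ ∀ s i : Fin m, s < i → rowOp s i f = 0) :
    Module.finrank ℂ W ≤ plethMult (Fintype.card σ) e m mu := by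
  classical
  rw [plethMult_eq_SymHW]
  have hfin := finiteDimensional_SymHW (Fintype.card σ) e m mu
  let ε : σ ≃ Fin (Fintype.card σ) := Fintype.equivFin σ
  have hι : Function.Injective (ε : σ → Fin (Fintype.card σ)) := ε.injective
  have hmem : ∀ f ∈ W, (rc m ε).toLinearMap f ∈ SymHW (Fintype.card σ) e m mu := by
    intro f hf
    obtain ⟨⟨h1, h2, -, h4⟩, h5⟩ := hW f hf
    change rc m ε f ∈ _
    have hc : ∀ v, coeff v (rc m ε f) ≠ 0 → ∃ u, coeff u f ≠ 0 ∧ ∀ i j, v (i, ε j) = u (i, j) := by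
      intro v hv
      obtain ⟨u, hu, hu1, -⟩ := coeff_rc hι hv
      exact ⟨u, hu, hu1⟩
    refine ⟨⟨⟨fun v hv i => ?_, fun s i hsi => ?_⟩, ?_⟩, fun e' => ?_⟩
    · obtain ⟨u, hu, hu1⟩ := hc v hv
      rw [← h1 u hu i, ← Equiv.sum_comp ε]
      exact Finset.sum_congr rfl fun j _ => hu1 i j
    · rw [rowOp_rc hι, h5 s i hsi, map_zero]
    · rw [SetLike.mem_coe, mem_ColS]
      intro j v hv
      rw [weight_colW]
      obtain ⟨u, hu, hu1⟩ := hc v hv
      rw [← h2 u hu (ε.symm j)]
      refine Finset.sum_congr rfl fun i _ => ?_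
      rw [← hu1, Equiv.apply_symm_apply]
    · have h6 := h4 ((ε.trans e').trans ε.symm)
      conv_rhs => rw [← h6]
      rw [rc, rename_rename, rename_rename]
      congr 2
      funext p
      simp
  have hinj : Function.Injective ((rc m ε).toLinearMap.restrict (p := W)
      (q := SymHW (Fintype.card σ) e m mu) hmem) := by
    intro f g hfg
    apply Subtype.ext
    have h1 : rc m ε f.1 = rc m ε g.1 := congrArg Subtype.val hfg
    exact rename_injective _ (inj_pr hι) h1
  exact LinearMap.finrank_le_finrank_of_injective hinj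

end

variable {σ : Type} [Fintype σ] {k e : ℕ} {tau : Fin (k + 1) → ℕ}

lemma rowOp_mem {j : ℕ} (hj : j + 1 + ∑ i, tau i ≤ e * Fintype.card σ)
    {f : MvPolynomial (Fin (k + 3) × σ) ℂ}
    (hf : f ∈ NN (k + 3) σ e (wj (e * Fintype.card σ) (j + 1) tau)) :
    rowOp 0 1 f ∈ NN (k + 3) σ e (wj (e * Fintype.card σ) j tau) := by
  obtain ⟨h1, h2, h3, h4⟩ := hf
  refine ⟨fun v hv i => ?_, fun v hv l => ?_, fun s i hsi hi => ?_, fun π => ?_⟩
  · obtain ⟨l, u, rfl, hu⟩ := exists_of_rowOp hv
    have h5 := h1 _ hu i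
    rw [row_add] at h5 ⊢
    obtain rfl | ⟨i, rfl⟩ := Fin.eq_zero_or_eq_succ i
    · have e0 : wj (e * Fintype.card σ) j tau 0 =
          e * Fintype.card σ - (j + ∑ i, tau i) := rfl
      have e1 : wj (e * Fintype.card σ) (j + 1) tau 0 =
          e * Fintype.card σ - (j + 1 + ∑ i, tau i) := rfl
      rw [e1, if_neg (by simp)] at h5
      rw [e0, if_pos rfl]
      omega
    · obtain rfl | ⟨i, rfl⟩ := Fin.eq_zero_or_eq_succ i
      · have e0 : wj (e * Fintype.card σ) j tau (Fin.succ 0) = j := rfl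
        have e1 : wj (e * Fintype.card σ) (j + 1) tau (Fin.succ 0) = j + 1 := rfl
        have e2 : (Fin.succ 0 : Fin (k + 3)) = 1 := rfl
        rw [e1, if_pos e2] at h5
        rw [e0, if_neg (Fin.succ_ne_zero _)]
        omega
      · have e0 : wj (e * Fintype.card σ) j tau i.succ.succ = tau i := rfl
        have e1 : wj (e * Fintype.card σ) (j + 1) tau i.succ.succ = tau i := rfl
        have hne : i.succ.succ ≠ (1 : Fin (k + 3)) := by
          intro h
          have h' : i.succ.succ = Fin.succ (0 : Fin (k + 2)) := h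
          exact Fin.succ_ne_zero _ (Fin.succ_injective _ h')
        rw [e1, if_neg hne] at h5
        rw [e0, if_neg (Fin.succ_ne_zero _)]
        exact h5
  · obtain ⟨l', u, rfl, hu⟩ := exists_of_rowOp hv
    rw [← h2 _ hu l]
    exact col_add u _ _ l' l
  · have hi0 : (0 : Fin (k + 3)) ≠ i := by
      intro h
      rw [← h] at hi
      simp at hi
    rw [rowOp_comm' s i 0 1 hi0, h3 s i hsi hi, map_zero, zero_sub]
    split_ifs with hs
    · rw [h3 0 i (lt_of_le_of_lt (Fin.zero_le s) hsi) hi, neg_zero]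
    · rw [neg_zero]
  · have h5 := rowOp_rc (m := k + 3) π.injective 0 1 f
    change rowOp 0 1 (rename (fun p : Fin (k + 3) × σ => (p.1, π p.2)) f) =
      rename (fun p : Fin (k + 3) × σ => (p.1, π p.2)) (rowOp 0 1 f) at h5
    rw [← h5, h4 π]

/-- The kernel of `rowOp 0 1`. -/
lemma ker_mem (mu : Fin (k + 3) → ℕ) {f : MvPolynomial (Fin (k + 3) × σ) ℂ}
    (hf : f ∈ NN (k + 3) σ e mu) (h0 : rowOp 0 1 f = 0) (s i : Fin (k + 3)) (hsi : s < i) :
    rowOp s i f = 0 := by
  obtain ⟨h1, h2, h3, h4⟩ := hf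
  by_cases hi : 2 ≤ (i : ℕ)
  · exact h3 s i hsi hi
  · have hs : s = 0 := by
      apply Fin.ext
      have : (s : ℕ) < (i : ℕ) := hsi
      have h00 : ((0 : Fin (k + 3)) : ℕ) = 0 := rfl
      omega
    have hi' : i = 1 := by
      apply Fin.ext
      have : (s : ℕ) < (i : ℕ) := hsi
      have h11 : ((1 : Fin (k + 3)) : ℕ) = 1 := rfl
      omega
    rw [hs, hi', h0]

/-- **(L2)** -/
theorem pigN : PigN := by
  intro k e j σ _ tau
  induction j with
  | zero =>
    rw [zero_add, Finset.sum_range_one]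
    refine ker_le e _ _ fun f hf => ⟨hf, fun s i hsi => ker_mem _ hf ?_ s i hsi⟩
    apply MvPolynomial.ext
    intro v
    rw [coeff_zero]
    by_contra hv
    obtain ⟨l, u, rfl, hu⟩ := exists_of_rowOp hv
    have h5 := hf.1 _ hu 1
    rw [row_add, if_pos rfl] at h5
    have e1 : wj (e * Fintype.card σ) 0 tau 1 = 0 := rfl
    rw [e1] at h5
    omega
  | succ j ih =>
    rw [Finset.sum_range_succ]
    by_cases hj : j + 1 + ∑ i, tau i ≤ e * Fintype.card σ
    · let L : NN (k + 3) σ e (wj (e * Fintype.card σ) (j + 1) tau) →ₗ[ℂ]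
          NN (k + 3) σ e (wj (e * Fintype.card σ) j tau) :=
        (rowOp 0 1).restrict fun f hf => rowOp_mem hj hf
      have h1 := LinearMap.finrank_range_add_finrank_ker L
      have h2 : Module.finrank ℂ (LinearMap.range L) ≤
          Module.finrank ℂ (NN (k + 3) σ e (wj (e * Fintype.card σ) j tau)) :=
        Submodule.finrank_le _
      have h3 : Module.finrank ℂ (LinearMap.ker L) ≤
          plethMult (Fintype.card σ) e (k + 3) (wj (e * Fintype.card σ) (j + 1) tau) := by
        rw [LinearEquiv.finrank_eq (Submodule.equivMapOfInjective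
          (NN (k + 3) σ e (wj (e * Fintype.card σ) (j + 1) tau)).subtype
          (Submodule.injective_subtype _) (LinearMap.ker L))]
        refine ker_le e _ _ ?_
        rintro _ ⟨f, hf, rfl⟩
        have hf0 : rowOp 0 1 (f : MvPolynomial (Fin (k + 3) × σ) ℂ) = 0 :=
          congrArg Subtype.val (LinearMap.mem_ker.1 hf)
        exact ⟨f.2, fun s i hsi => ker_mem _ f.2 hf0 s i hsi⟩
      omega
    · have h0 : Module.finrank ℂ (NN (k + 3) σ e (wj (e * Fintype.card σ) (j + 1) tau)) = 0 := by
        have hbot : NN (k + 3) σ e (wj (e * Fintype.card σ) (j + 1) tau) = ⊥ := by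
          rw [eq_bot_iff]
          intro f hf
          rw [Submodule.mem_bot]
          apply MvPolynomial.ext
          intro v
          rw [coeff_zero]
          by_contra hv
          have h1 : ∑ i, ∑ l, v (i, l) =
              ∑ i, wj (e * Fintype.card σ) (j + 1) tau i :=
            Finset.sum_congr rfl fun i _ => hf.1 v hv i
          have h2 : ∑ l, ∑ i, v (i, l) = Fintype.card σ * e := by
            rw [Finset.sum_congr rfl fun l _ => hf.2.1 v hv l, Finset.sum_const,
              Finset.card_univ, smul_eq_mul]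
          rw [Finset.sum_comm, h2, Fin.sum_univ_succ, Fin.sum_univ_succ] at h1
          have e0 : wj (e * Fintype.card σ) (j + 1) tau 0 =
            e * Fintype.card σ - (j + 1 + ∑ i, tau i) := rfl
          have e1 : wj (e * Fintype.card σ) (j + 1) tau (Fin.succ 0) = j + 1 := rfl
          have e2 : ∀ i : Fin (k + 1),
            wj (e * Fintype.card σ) (j + 1) tau i.succ.succ = tau i := fun i => rfl
          have e3 : ∑ i : Fin (k + 1), wj (e * Fintype.card σ) (j + 1) tau i.succ.succ =
            ∑ i, tau i := Finset.sum_congr rfl fun i _ => e2 i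
          have e4 : Fintype.card σ * e = e * Fintype.card σ := mul_comm _ _
          rw [e0, e3, e4] at h1
          change _ = _ + (j + 1 + _) at h1
          omega
        rw [hbot]
        exact finrank_bot ℂ _
      omega

end Vale.Agent.P181.H382.H242
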